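import Vale.Agent.P141.H863.PhiZ1
import Vale.Agent.P141.H811.NumZ
import Vale.Agent.P141.H76.CapZ
import Vale.Agent.P141.H76.MassZ
import Vale.Agent.P141.H550.CrZ
import Vale.Agent.P141.H900.NumAB
import Vale.Agent.P141.H639.NumL
import Vale.Agent.P141.H675.OfSlot
import Vale.Agent.P141.H170.PairT
import Vale.Agent.P141.H636.FibF

/-!
# P141, line (A), flow part: `PartS FDU PhiZ`

The composition of the numbers at one slot (`H811.num_z`, `H550.CrZ.cross_born`, `H76.cap_z`,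
`H76.mass_z`, `H900.Num.numA_TF`) with the pair theorem (`H170.PairT.pairACr`, `H863.phiZ_core`).
-/

namespace Vale.Agent.P141.H454.PhiZ

open Finset Matrix
open Vale.Agent.P141.PL (Pt iv hs ix mem_iv ix_ix cb mem_cb cx card_iv)
open Vale.Agent.P141.PL.H315 (Tri)
open Vale.Agent.P141.H958 (lbs)
open Vale.Agent.P141.H581 (RX)
open Vale.Agent.P141.H747 (sL sG RgS MA MB MC shA shB shC)
open Vale.Agent.P141.H677 Vale.Agent.P141.H677.Sk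
open Vale.Agent.P141.H795 (ys)
open Vale.Agent.P141.H505.Sk1 (Num NumA Ch)
open Vale.Agent.P141.H277.Phi

noncomputable section

open scoped Classical

/-- the changes do not see a factor -/
theorem Ch_smul {κ : Type} {w : ℝ} (hw : w ≠ 0) (c : ℕ → ℤ → ℤ → κ → ℝ) :
    Ch (fun k x z => w • c k x z) = Ch c := by
  funext k n m
  refine propext (exists_congr fun x => and_congr_right fun _ => exists_congr fun z =>
    and_congr_right fun _ => not_congr ?_)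
  exact (smul_right_injective _ hw).eq_iff

/-- the numbers of `A` do not see a factor of the third family -/
theorem numA_smul {κ : Type} [Fintype κ] [DecidableEq κ] {w : ℝ} (hw : w ≠ 0) {k₀ N : ℕ}
    {r1 r2 r3 : ℤ} {pl : ℕ → ℤ} {A : ℕ → ℤ → ℤ → ℝ} {c : ℕ → ℤ → ℤ → κ → ℝ} {t2 EA : ℝ}
    (h : NumA k₀ N r1 r2 r3 pl A c t2 EA) :
    NumA k₀ N r1 r2 r3 pl A (fun k x z => w • c k x z) t2 EA where
  cap := h.cap
  en := h.en
  born := h.born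
  cr := by
    rw [Ch_smul hw]
    exact h.cr

/-- the sum of the numbers -/
theorem num_sum {m ez N0 P B L8 M8 X Es : ℝ} (hm : 0 < m) (hm1 : m ≤ 1) (hez : 0 < ez)
    (hN : 0 ≤ N0) (hP : 0 ≤ P) (hB : 0 ≤ B) (hL : 0 ≤ L8) (hLM : L8 ≤ M8)
    (hX : (10 + P) + 12 * (B + P) ≤ X)
    (h : Es ≤ ((√ez)⁻¹) ^ 2 * (5 * (N0 * (ez * m)) + 4 * ((m ^ (1 / 4 : ℝ)) ^ 2)⁻¹ * (N0 * (ez * m)) +
      (m ^ (1 / 4 : ℝ)) ^ 2 * (12 * ez * L8 * B)) +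
      (ez⁻¹ * ((1 + P) * (N0 * (ez * m))) + (m ^ (1 / 4 : ℝ)) ^ 2 * (12 * L8 * P))) :
    Es ≤ X * (N0 + M8) * √m := by
  have e1 : (m ^ (1 / 4 : ℝ)) ^ 2 = √m := H639.NumL.eps_sq hm.le
  have hq : 0 < √m := Real.sqrt_pos.2 hm
  have e2 : ((√ez)⁻¹) ^ 2 = ez⁻¹ := by rw [inv_pow, Real.sq_sqrt hez.le]
  have e3 : (√m)⁻¹ * m = √m := by
    rw [inv_mul_eq_div]
    exact H639.NumL.m_div_sqrt hm
  have e4 := H639.NumL.m_le_sqrt hm.le hm1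
  rw [e1, e2] at h
  have e5 : ez⁻¹ * (5 * (N0 * (ez * m)) + 4 * (√m)⁻¹ * (N0 * (ez * m)) +
      √m * (12 * ez * L8 * B)) + (ez⁻¹ * ((1 + P) * (N0 * (ez * m))) + √m * (12 * L8 * P)) =
      5 * (N0 * m) + 4 * (N0 * ((√m)⁻¹ * m)) + √m * (12 * L8 * B) + (1 + P) * (N0 * m) +
        √m * (12 * L8 * P) := by
    field_simp
    ring
  rw [e5, e3] at h
  have h1 : N0 * m ≤ N0 * √m := mul_le_mul_of_nonneg_left e4 hN
  have h2 : (1 + P) * (N0 * m) ≤ (1 + P) * (N0 * √m) :=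
    mul_le_mul_of_nonneg_left h1 (by linarith)
  have h3 : Es ≤ ((10 + P) * N0 + 12 * (B + P) * L8) * √m := by nlinarith
  refine h3.trans (mul_le_mul_of_nonneg_right ?_ hq.le)
  have h4 : (10 + P) * N0 ≤ X * N0 := mul_le_mul_of_nonneg_right (by linarith) hN
  have h5 : 12 * (B + P) * L8 ≤ X * M8 :=
    mul_le_mul (by linarith) hLM hL (by linarith)
  linarith

/-- **The numbers of the pair `(A, C~)` at one slot.** -/
theorem nums {ι : Type} [Fintype ι] [DecidableEq ι] {q : H401.Num} {n : ℕ} {ez : ℝ}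
    {F1 F2 F3 : ℕ → Pt → ℝ} {K : ℕ} {x : Pt} {s r P0 : ℝ} {U : Tri} {g : ℤ → ℤ → ℝ}
    {u v : ℤ → ℤ → ι → ℝ} {A : FamA} {b C : FamV ι} {Q1 Q2 Q3 : ℕ → Pt → Prop}
    {v' : ℤ → ℤ → ι → ℝ} (hD : FDs q n ez F1 F2 F3 K x s r U g u v A b C Q1 Q2 Q3 v')
    (hC : H305.Cls K x s r P0 U g u v) (hs : 0 < s) (hr : 1 ≤ r) (ht : 0 < q.t) (ht1 : q.t ≤ 1)
    (hc : 0 ≤ q.c) (hd : 0 ≤ q.d) (hcP : 0 ≤ q.cP) (hK : K ≤ n) {o : ℤ} (ho : o = 1 ∨ o = -1)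
    {Al : ℕ → Pt → Prop} {l : ℝ} {R : Slt ι} {κ E : ℝ} (hκ : 1 ≤ κ)
    (hS : SlotN Al o K (cx K x) l u R κ E) {j : ℤ} (hj : j ∈ Icc (0 : ℤ) 2) (h e : Pt)
    (hez : 0 < ez) {m N0 : ℝ} (hm : 0 < m) (hm1 : m ≤ 1) (hN0 : 0 ≤ N0)
    (hnum : NumX K (cx K x) R C h (N0 * (ez * m))) {X : ℝ}
    (hX : (10 + H550.CrZ.PN q.cP) + 12 * ((q.cP + 3) + H550.CrZ.PN q.cP) ≤ X) :
    ∃ En : ℤ → ℝ, (∀ x0, 0 ≤ En x0) ∧
      (∀ t' ∈ rt (cx K x), ∑ x0 ∈ iv K t', En x0 ≤ X * (N0 + MM q s r κ K) * √m) ∧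
      ∀ t' ∈ rt (cx K x), ∀ x0 ∈ iv K t',
        Num 0 K ((cx K x).1 - e.1) ((cx K x).2.1 - e.2.1) ((cx K x).2.2 - e.2.2)
          (fun k => ix k (ys (-x0) h) - j) (fun k y z => shA K (cx K x) h (A x0) (min k K) z y)
          (fun k x' y => shB K (cx K x) h (b x0) (min k K) x' y)
          (fun k x' z => (√ez)⁻¹ • shC K (cx K x) h (C x0) (min k K) z x')
          (H43.Seam.WQ (m ^ (1 / 4 : ℝ)) (RgS R h.2.2 h.1 x0)) (H43.Seam.MQ (RgS R h.2.2 h.1 x0))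
          (fun _ _ _ => 0) (En x0)
          (√(64 * ((m ^ (1 / 4 : ℝ)) ^ 2 + κ ^ 2) * √(q.Lm * s))) := by
  have hε : 0 < m ^ (1 / 4 : ℝ) := Real.rpow_pos_of_pos hm _
  have hL : 0 ≤ q.Lm := by
    unfold H401.Num.Lm
    positivity
  have hP : 0 ≤ H550.CrZ.PN q.cP := by
    unfold H550.CrZ.PN
    positivity
  obtain ⟨MMx, hM0, hM1, _, hM3⟩ := H76.mass_z hD hC hL hs.le hez.le hK
  rw [mem_Icc] at hj
  obtain ⟨Ec, hE0, hE1, hE2⟩ := H550.CrZ.cross_born hD hC hez hL hs.le hcP hK ho hj.1 hj.2 h e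
    hnum (m ^ (1 / 4 : ℝ))
  have hR : ∀ x0 z x1, (R x0 0 z x1)ᵀ = R x0 0 z x1 := fun x0 z x1 => hS.symm x0 0 (Nat.zero_le K) z x1
  have hc0 : 0 ≤ 64 * ((m ^ (1 / 4 : ℝ)) ^ 2 + κ ^ 2) * √(q.Lm * s) := by positivity
  have hc2 : 64 * ((m ^ (1 / 4 : ℝ)) ^ 2 + κ ^ 2) * √(q.Lm * s) ≤
      (√(64 * ((m ^ (1 / 4 : ℝ)) ^ 2 + κ ^ 2) * √(q.Lm * s))) ^ 2 := (Real.sq_sqrt hc0).ge
  obtain ⟨En, h1, h2, h3⟩ := H811.num_z (b := b) (A := A) (ν := (√ez)⁻¹) hε hnum hR e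
    (fun x0 k => ix k (ys (-x0) h) - j) hM0 hE0 (fun t _ x0 _ j hj => hM1 x0 j hj) hM3 hE1
    (fun t _ x0 _ => (hE2 x0).2) (fun t _ x0 _ => (hE2 x0).1)
    (fun t _ x0 _ k a n' m' hk ha j' _ hj' _ _ => H76.cap_z hD hC ht hs.le hez hK h x0 (hR x0)
      (fun z x1 w => hS.cap x0 0 (Nat.zero_le K) z x1 w) hc2 k a n' m' hk ha j' hj')
  refine ⟨En, h1, fun t' ht' => ?_, h3⟩
  have hle : ∑ x0 ∈ iv K t', En x0 ≤ ∑ t ∈ rt (cx K x), ∑ x0 ∈ iv K t, En x0 :=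
    single_le_sum (f := fun t => ∑ x0 ∈ iv K t, En x0)
      (fun t _ => sum_nonneg fun x0 _ => h1 x0) ht'
  have hLM := H639.NumL.lm_MM ht ht1 hc hd hs.le hr hκ K
  refine num_sum (L8 := q.Lm * s * 8 ^ K) hm hm1 hez hN0 hP (by linarith : 0 ≤ q.cP + 3)
    (by positivity) hLM hX ?_
  refine (hle.trans h2).trans (le_of_eq ?_)
  ring

/-- the constant -/
def CX (q : H401.Num) : ℝ :=
  560000 + ((10 + H550.CrZ.PN q.cP) + 12 * ((q.cP + 3) + H550.CrZ.PN q.cP)) +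
    49 * q.CD * (q.cP + 3)

theorem PN_nonneg {c : ℝ} (hc : 0 ≤ c) : 0 ≤ H550.CrZ.PN c := by
  unfold H550.CrZ.PN
  positivity

theorem tS_pos {q : H401.Num} {s r : ℝ} (ht : 0 < q.t) (hs : 0 < s) (hr : 0 < r) :
    0 < tS q s r := by
  unfold tS H401.Num.th
  positivity

/-- **The pair `(A, C~)` at one slot.** -/
theorem phiZ_slot {ι : Type} [Fintype ι] [DecidableEq ι] {q : H401.Num} {n : ℕ} {ez : ℝ}
    {F1 F2 F3 : ℕ → Pt → ℝ} {K : ℕ} {x : Pt} {s r P0 : ℝ} {U : Tri} {g : ℤ → ℤ → ℝ}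
    {u v : ℤ → ℤ → ι → ℝ} {A : FamA} {b C : FamV ι} {Q1 Q2 Q3 : ℕ → Pt → Prop}
    {v' : ℤ → ℤ → ι → ℝ} (hD : FDs q n ez F1 F2 F3 K x s r U g u v A b C Q1 Q2 Q3 v')
    (hC : H305.Cls K x s r P0 U g u v) (hs : 0 < s) (hr : 1 ≤ r) (ht : 0 < q.t) (ht1 : q.t ≤ 1)
    (hk3 : 0 ≤ q.k3) (hc : 0 ≤ q.c) (hd : 0 ≤ q.d) (hd2 : q.d ≤ 2) (hcP : 0 ≤ q.cP)
    (hCD : 0 ≤ q.CD) (hK : K ≤ n) {o : ℤ} (ho : o = 1 ∨ o = -1)
    {Al : ℕ → Pt → Prop} {l : ℝ} {R : Slt ι} {κ E : ℝ} (hκ : 1 ≤ κ)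
    (hS : SlotN Al o K (cx K x) l u R κ E) {j : ℤ} (hj : j ∈ Icc (0 : ℤ) 2) (h e : Pt) {X : ℝ}
    (hX : CX q ≤ X) :
    PhiZ ι q n ez F1 F2 F3 o K x s r U g u v A b C R κ E h j e X := by
  intro hez m N0 hm hm1 hN0 hnum t' ht' Lb eb he hmem
  have hPN := PN_nonneg hcP
  have hL : 0 ≤ q.Lm := by
    unfold H401.Num.Lm
    positivity
  have hCDc : 0 ≤ 49 * q.CD * (q.cP + 3) := by positivity
  have hX' := hX
  unfold CX at hX'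
  have hX1 : 560000 ≤ X := by linarith
  have hXn : (10 + H550.CrZ.PN q.cP) + 12 * ((q.cP + 3) + H550.CrZ.PN q.cP) ≤ X := by linarith
  have hXa : 49 * q.CD * (q.cP + 3) ≤ X := by linarith
  obtain ⟨En, h1, h2, h3⟩ := nums hD hC hs hr ht ht1 hc hd hcP hK ho hκ hS hj h e hez hm hm1 hN0
    hnum hXn
  obtain ⟨EA, a1, a2, a3⟩ := H900.Num.numA_TF hD hK (by positivity) h j
  have hε : 0 < m ^ (1 / 4 : ℝ) := Real.rpow_pos_of_pos hm _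
  have hτ := tS_pos (q := q) ht hs (lt_of_lt_of_le one_pos hr)
  have hMM0 := MM_nonneg (K := K) ht ht1 hs hr hκ
  have hLM := H639.NumL.lm_MM ht ht1 hc hd hs.le hr hκ K
  have hH := HH_one (κ := κ) ht ht1 hr hκ (by linarith : 1 ≤ X)
  have hw : (√ez)⁻¹ ≠ 0 := inv_ne_zero (Real.sqrt_pos.2 hez).ne'
  have hE0 : 0 ≤ ∑ x0 ∈ iv K t', En x0 := sum_nonneg fun x0 _ => h1 x0
  have hA0 : 0 ≤ ∑ x0 ∈ iv K t', EA x0 := sum_nonneg fun x0 _ => a1 x0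
  refine ⟨∑ x0 ∈ iv K t', En x0, ∑ x0 ∈ iv K t', EA x0, hE0, hA0, h2 t' ht', ?_, fun z hz => ?_⟩
  · refine (a3 t').trans ?_
    have e1 : 49 * (q.CD * (q.Lm * s)) * (q.cP + 3) * 8 ^ K =
        49 * q.CD * (q.cP + 3) * (q.Lm * s * 8 ^ K) := by ring
    rw [e1]
    refine mul_le_mul hXa (by linarith) (by positivity) (by linarith)
  · have hc0 : 0 ≤ 64 * ((m ^ (1 / 4 : ℝ)) ^ 2 + κ ^ 2) * √(q.Lm * s) := by positivity
    have hcap := H639.NumL.cap_HH64 (q := q) (s := s) (r := r) (κ := κ) (m := m) (X := X) ht ht1 hr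
      hs.le hk3 hd2 hκ hm.le hm1 (by linarith)
    have hcC : (√(64 * ((m ^ (1 / 4 : ℝ)) ^ 2 + κ ^ 2) * √(q.Lm * s))) ^ 2 ≤
        HH q r κ X * tS q s r ^ 2 := by
      rw [Real.sq_sqrt hc0]
      exact hcap
    have hR : ∀ x0 z x1, (R x0 0 z x1)ᵀ = R x0 0 z x1 :=
      fun x0 z x1 => hS.symm x0 0 (Nat.zero_le K) z x1
    have key := H863.phiZ_core (M := cx K x) (A := A) (b := b) (C := C) H170.PairT.pairACr
      (by norm_num) hm hm1 hτ hH h hj e t' (fun x0 _ => hR x0) (fun x0 _ => h1 x0)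
      (fun x0 _ => a1 x0) hcC (fun x0 hx0 => h3 t' ht' x0 hx0) (fun x0 _ => ?_) he hmem z hz
    · refine key.trans (mul_le_mul_of_nonneg_left ?_ (by positivity))
      have hlog := (log_mono ht ht1 hr hκ (by linarith : 1 ≤ X) le_rfl hm hm1).1
      refine mul_le_mul_of_nonneg_right (mul_le_mul_of_nonneg_right (by linarith)
        (by positivity)) (by positivity)
    · rw [H639.NumL.tS_sq]
      exact numA_smul hw (a2 x0 _ _ _)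

/-- **`PhiZ` for the bundle of the flow part.** -/
theorem phiZ_FD : H186.PS.PartS FD PhiZ := by
  refine H675.PX.PartS.of_slot (fun q => CX q) ?_
  intro ι _ _ q n ez F1 F2 F3 o K x s r U g u v A b C R κ E h j e ha ha1 he0 he01 hk8 hk81 hk3 hk31
    hc hc1 hd hd1 hKt hqe hcP hqL hCD ht ht1 u1 u3 u2 ho hK hs hr hcls hD hκ hE hEL hsl hh hj he
  obtain ⟨Q1, Q2, Q3, v', hD⟩ := hD
  exact phiZ_slot hD hcls.toCls hs hr ht ht1 hk3.le hc hd.le (by linarith) hcP (by linarith) hK ho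
    hκ hsl hj h e (le_max_right _ _)

/-- **`PhiZ` for the bundle with small fibres.** -/
theorem phiZ_FDU : H186.PS.PartS H636.FDU PhiZ := by
  refine H675.PX.PartS.of_slot (fun q => CX q) ?_
  intro ι _ _ q n ez F1 F2 F3 o K x s r U g u v A b C R κ E h j e ha ha1 he0 he01 hk8 hk81 hk3 hk31
    hc hc1 hd hd1 hKt hqe hcP hqL hCD ht ht1 u1 u3 u2 ho hK hs hr hcls hD hκ hE hEL hsl hh hj he
  obtain ⟨_, _, Q1, Q2, Q3, v', hD⟩ := hD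
  exact phiZ_slot hD hcls.toCls hs hr ht ht1 hk3.le hc hd.le (by linarith) hcP (by linarith) hK ho
    hκ hsl hj h e (le_max_right _ _)

end

end Vale.Agent.P141.H454.PhiZ
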