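import Vale.Agent.P141.H540.GenRA

/-!
# P141, line (A): the Hilbert-Schmidt energy of the layers of a later generation at one point

`E_HS` : the sum over the scales and the cells of `x0` of the squares of the Hilbert-Schmidt norms
of the layers of the generation `g + 1` at a fixed point `p` of `x3` is at most
`2 ^ n (3 T1 / (2 l)) (3780000 T0 / (l κ_g ^ 6))`, `T1` a bound for the traces on the live cells,
`T0` on the live cells at the top.
-/

namespace Vale.Agent.P141.H454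

open Finset Matrix
open Vale.Agent.P141.PL (Pt iv hs ix mem_iv ix_ix)
open Vale.Agent.P141.H970
open Vale.Agent.P141.H43 (nsq nsq_nonneg)
open Vale.Agent.P141.H922 (ck iv_succ_sum)
open Vale.Agent.P141.H483 (tmean)
open Vale.Agent.P141.H690 (MX Qs XT XT_symm XT_psd Qs_trace_eq tsum_sum tsum_tie MX_sum_le)
open Vale.Agent.P141.H540
open Vale.Agent.P141.H677 (MT)

noncomputable section

open scoped Classical

variable {ι : Type*} [Fintype ι] [DecidableEq ι]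

/-- the square of the Hilbert-Schmidt norm, by the columns -/
def hsn (X : Matrix ι ι ℝ) : ℝ := ∑ a, nsq (X *ᵥ Pi.single a 1)

theorem hsn_nonneg (X : Matrix ι ι ℝ) : 0 ≤ hsn X := sum_nonneg fun _ _ => nsq_nonneg _

theorem hsn_smul (c : ℝ) (X : Matrix ι ι ℝ) : hsn (c • X) = c ^ 2 * hsn X := by
  unfold hsn
  rw [mul_sum]
  refine sum_congr rfl fun a _ => ?_
  unfold H43.nsq
  rw [smul_mulVec, smul_dotProduct, dotProduct_smul, smul_eq_mul, smul_eq_mul]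
  ring

theorem hsn_zero : hsn (0 : Matrix ι ι ℝ) = 0 := by
  have h := hsn_smul (0 : ℝ) (0 : Matrix ι ι ℝ)
  rw [smul_zero] at h
  rw [h]
  ring

theorem hsn_eq (X : Matrix ι ι ℝ) : hsn X = ∑ a, ∑ b, X a b ^ 2 := by
  unfold hsn
  rw [sum_comm]
  refine sum_congr rfl fun a _ => ?_
  unfold H43.nsq
  rw [mulVec_single_one, dotProduct]
  refine sum_congr rfl fun b _ => ?_
  rw [col_apply]
  ring

/-! ### Sums over the points and tree sums -/

theorem sum_path (φ : ℕ → ℤ → ℝ) (n : ℕ) : ∀ t : ℤ,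
    ∑ i ∈ range n, ∑ x0 ∈ iv n t, φ (i + 1) (ix (i + 1) x0) = 2 ^ n * H420.tsum φ n t := by
  induction n with
  | zero => intro t; simp [H420.tsum]
  | succ n ih =>
    intro t
    rw [sum_range_succ]
    have h1 : ∑ x0 ∈ iv (n + 1) t, φ (n + 1) (ix (n + 1) x0) = 2 ^ (n + 1) * φ (n + 1) t := by
      have e : ∀ x0 ∈ iv (n + 1) t, φ (n + 1) (ix (n + 1) x0) = φ (n + 1) t := by
        intro x0 hx
        rw [mem_iv.1 hx]
      rw [sum_congr rfl e, sum_const, PL.card_iv, nsmul_eq_mul]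
      push_cast
      ring
    have h2 : ∑ i ∈ range n, ∑ x0 ∈ iv (n + 1) t, φ (i + 1) (ix (i + 1) x0) =
        ∑ i ∈ range n, ∑ x0 ∈ iv n (2 * t), φ (i + 1) (ix (i + 1) x0) +
          ∑ i ∈ range n, ∑ x0 ∈ iv n (2 * t + 1), φ (i + 1) (ix (i + 1) x0) := by
      rw [← sum_add_distrib]
      exact sum_congr rfl fun i _ => iv_succ_sum n t (fun x0 => φ (i + 1) (ix (i + 1) x0))
    rw [h1, h2, ih, ih]
    simp only [H420.tsum]
    ring

/-! ### The masked tree -/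

section mask

variable {l : ℝ} {n : ℕ} {G Kq : ℕ → ℤ → Matrix ι ι ℝ} {lv : ℕ → ℤ → Prop}

/-- the tree of the squares on the live cells -/
def gl (l : ℝ) (Kq : ℕ → ℤ → Matrix ι ι ℝ) (lv : ℕ → ℤ → Prop) (j : ℕ) (q : ℤ) : ℝ :=
  if lv j q then hsn (MX l Kq j q) else 0

theorem gl_nonneg (j : ℕ) (q : ℤ) : 0 ≤ gl l Kq lv j q := by
  unfold gl
  split_ifs
  · exact hsn_nonneg _
  · exact le_rfl

theorem gl_dead (hlv : ∀ k < n, ∀ q, lv k q → lv (k + 1) (q / 2)) : ∀ k ≤ n, ∀ q, ¬ lv k q →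
    H420.tsum (gl l Kq lv) k q = 0 := by
  intro k
  induction k with
  | zero => intro _ q _; simp [H420.tsum]
  | succ k ih =>
    intro hk q hq
    have hkn : k < n := by omega
    have h1 : ¬ lv k (2 * q) := fun h => hq (by
      have := hlv k hkn _ h
      rwa [show 2 * q / 2 = q by omega] at this)
    have h2 : ¬ lv k (2 * q + 1) := fun h => hq (by
      have := hlv k hkn _ h
      rwa [show (2 * q + 1) / 2 = q by omega] at this)
    simp only [H420.tsum]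
    rw [ih (by omega) _ h1, ih (by omega) _ h2]
    unfold gl
    rw [if_neg hq]
    ring

theorem trace_single (X : Matrix ι ι ℝ) :
    ∑ a, ((Pi.single a (1 : ℝ) : ι → ℝ) ⬝ᵥ X *ᵥ Pi.single a 1) = X.trace := by
  rw [trace]
  refine sum_congr rfl fun a _ => ?_
  rw [mulVec_single_one, single_dotProduct, one_mul, col_apply, diag_apply]

theorem gl_le (h : H420.Tr l n G Kq) (hlv : ∀ k < n, ∀ q, lv k q → lv (k + 1) (q / 2)) {k : ℕ}
    (hk : k ≤ n) {T : ℝ} (hT0 : 0 ≤ T) (hT : ∀ q, lv k q → (G k q).trace ≤ T) (q : ℤ) :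
    H420.tsum (gl l Kq lv) k q ≤ T / (2 * l) := by
  have hl := h.l_pos
  by_cases hq : lv k q
  · have h1 : H420.tsum (gl l Kq lv) k q ≤ H420.tsum (fun j i => hsn (MX l Kq j i)) k q :=
      H483.tsum_mono (n := n) (fun j _ i => by
        unfold gl
        split_ifs
        · exact le_rfl
        · exact hsn_nonneg _) k hk q
    refine h1.trans ?_
    have h2 : H420.tsum (fun j i => hsn (MX l Kq j i)) k q =
        ∑ a, H420.tsum (fun j i => (MX l Kq j i *ᵥ (Pi.single a (1 : ℝ) : ι → ℝ)) ⬝ᵥ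
          (MX l Kq j i *ᵥ Pi.single a 1)) k q :=
      tsum_sum univ (fun a j i => (MX l Kq j i *ᵥ (Pi.single a (1 : ℝ) : ι → ℝ)) ⬝ᵥ
          (MX l Kq j i *ᵥ Pi.single a 1)) k q
    rw [h2]
    refine (sum_le_sum fun a _ => MX_sum_le h (Pi.single a 1) hk q).trans ?_
    rw [← sum_div, trace_single]
    exact div_le_div_of_nonneg_right (hT q hq) (by linarith)
  · rw [gl_dead hlv k hk q hq]
    positivity

/-- the path of `x0` at the points `x1`, `x3` -/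
theorem path_le (h : H420.Tr l n G Kq) {o x1 x3 : ℤ} (ho : o = 1 ∨ o = -1)
    {s : ℕ → ℤ → ℤ → ℝ} (hs1 : ∀ k a b, |s k a b| ≤ 1)
    (hlv : ∀ k < n, ∀ q, lv k q → lv (k + 1) (q / 2))
    (hs0 : ∀ k ≤ n, ∀ a b, s k a b ≠ 0 → lv k (o - 2 - ix k x1 - b - a)) {k : ℕ}
    (hk : k ≤ n) {T : ℝ} (hT0 : 0 ≤ T) (hT : ∀ q, lv k q → (G k q).trace ≤ T) (m : ℤ) :
    H420.tsum (fun j i => hsn (XS l n Kq o x1 s x3 j i)) k m ≤ 3 * T / (2 * l) := by
  have hc : -3 ≤ o - 2 ∧ o - 2 ≤ -1 := by rcases ho with h | h <;> omega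
  have key : ∀ j, 1 ≤ j → j ≤ k → ∀ i, hsn (XS l n Kq o x1 s x3 j i) ≤
      gl l Kq lv j (o - 2 - i - x1 / 2 ^ j - x3 / 2 ^ j) := by
    intro j _ hj i
    have hjn : j ≤ n := hj.trans hk
    rw [XS_eq hjn, hsn_smul]
    by_cases hz : s j i (ix j x3) = 0
    · rw [hz, zero_mul]
      have := gl_nonneg (l := l) (Kq := Kq) (lv := lv) j (o - 2 - i - x1 / 2 ^ j - x3 / 2 ^ j)
      simpa using this
    · have h1 := hs0 j hjn i (ix j x3) hz
      have e : o - 2 - i - x1 / 2 ^ j - x3 / 2 ^ j = o - 2 - ix j x1 - ix j x3 - i := by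
        unfold PL.ix
        ring
      have e2 : ck o x1 x3 j - i = o - 2 - ix j x1 - ix j x3 - i := rfl
      rw [e, e2]
      unfold gl
      rw [if_pos h1, MT_eq_MX]
      have h2 : (s j i (ix j x3) * hs j x3) ^ 2 ≤ 1 := by
        have h3 : |s j i (ix j x3) * hs j x3| ≤ 1 := by
          rw [abs_mul, PL.abs_hs, mul_one]
          exact hs1 _ _ _
        rw [← sq_abs]
        exact pow_le_one₀ (abs_nonneg _) h3
      exact mul_le_of_le_one_left (hsn_nonneg _) h2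
  have h1 := tsum_tie (f := fun j i => hsn (XS l n Kq o x1 s x3 j i)) (g := gl l Kq lv)
    (fun j i => gl_nonneg j i) (x1 := x1) (x3 := x3) hc.1 hc.2 (k := k) m key
  have h2 := fun p => gl_le h hlv hk hT0 hT p
  have e : 3 * T / (2 * l) = T / (2 * l) + T / (2 * l) + T / (2 * l) := by ring
  rw [e]
  linarith [h2 (-(x1 / 2 ^ k + x3 / 2 ^ k + m) - 3), h2 (-(x1 / 2 ^ k + x3 / 2 ^ k + m) - 2),
    h2 (-(x1 / 2 ^ k + x3 / 2 ^ k + m) - 1)]

end mask

/-! ### The layers of a generation -/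

section gen

variable {l : ℝ} {n : ℕ} {G Kq : ℕ → ℤ → Matrix ι ι ℝ} {M : ℕ → ℝ} {o x1 : ℤ}
  {s : ℕ → ℤ → ℤ → ℝ}

/-- a layer of the generation `g` -/
theorem Lm_gen (g : ℕ) (x3 x0 : ℤ) {k : ℕ} (hk : k < n) :
    H841.Lm (MT l Kq) o x1 (sG l n Kq M o x1 s g) (k + 1) x0 x3 =
      hs (k + 1) x0 • (if (st n M (XS l n Kq o x1 s x3) (n - (k + 1)) (ix (k + 1) x0)).1 = g then
          XS l n Kq o x1 s x3 (k + 1) (ix (k + 1) x0) else 0) := by
  have eg := gmm_eq (l := l) (n := n) (Kq := Kq) (M := M) (o := o) (x1 := x1) (s := s)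
    (show k + 1 ≤ n by omega) (ix (k + 1) x0) x3
  unfold H841.Lm sG
  rw [eg]
  split_ifs
  · rw [XS_eq (show k + 1 ≤ n by omega), smul_smul]
    congr 1
    ring
  · rw [zero_mul, zero_smul, smul_zero]

theorem hsn_Lm (g : ℕ) (x3 x0 : ℤ) {k : ℕ} (hk : k < n) :
    hsn (H841.Lm (MT l Kq) o x1 (sG l n Kq M o x1 s g) (k + 1) x0 x3) =
      (if (st n M (XS l n Kq o x1 s x3) (n - (k + 1)) (ix (k + 1) x0)).1 = g then 1 else 0) *
        hsn (XS l n Kq o x1 s x3 (k + 1) (ix (k + 1) x0)) := by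
  rw [Lm_gen g x3 x0 hk, hsn_smul]
  have e : hs (k + 1) x0 ^ 2 = 1 := by
    rw [← sq_abs, PL.abs_hs]
    norm_num
  rw [e, one_mul]
  split_ifs
  · rw [one_mul]
  · rw [zero_mul, hsn_zero]

/-- **The Hilbert-Schmidt energy as a tree sum.** -/
theorem sum_hsn_Lm (g : ℕ) (t p : ℤ) :
    ∑ i ∈ range n, ∑ x0 ∈ iv n t,
      hsn (H841.Lm (MT l Kq) o x1 (sG l n Kq M o x1 s g) (i + 1) x0 p) =
    2 ^ n * H420.tsum (fun j i =>
      (if (st n M (XS l n Kq o x1 s p) (n - j) i).1 = g then 1 else 0) *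
        hsn (XS l n Kq o x1 s p j i)) n t := by
  rw [← sum_path]
  refine sum_congr rfl fun i hi => sum_congr rfl fun x0 _ => ?_
  exact hsn_Lm g p x0 (mem_range.1 hi)

/-- **Energy of the later generations, Hilbert-Schmidt norm, one point `p`.** -/
theorem E_HS (hT : H420.Tr l n G Kq) (ho : o = 1 ∨ o = -1) (hs1 : ∀ k a b, |s k a b| ≤ 1)
    {lv : ℕ → ℤ → Prop} (hlv : ∀ k < n, ∀ q, lv k q → lv (k + 1) (q / 2))
    (hs0 : ∀ k ≤ n, ∀ a b, s k a b ≠ 0 → lv k (o - 2 - ix k x1 - b - a))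
    {T₀ T₁ : ℝ} (hT00 : 0 ≤ T₀) (hT10 : 0 ≤ T₁) (hT0 : ∀ q, lv n q → (G n q).trace ≤ T₀)
    (hT1 : ∀ k ≤ n, ∀ q, lv k q → (G k q).trace ≤ T₁) {κ : ℕ → ℝ} (hκ : ∀ g, 0 < κ g) (g : ℕ)
    (t p : ℤ) :
    ∑ i ∈ range n, ∑ x0 ∈ iv n t, hsn (H841.Lm (MT l Kq) o x1
        (sG l n Kq (fun g => κ g ^ 6) o x1 s (g + 1)) (i + 1) x0 p) ≤
      2 ^ n * (3 * T₁ / (2 * l) * (3780000 * T₀ / (l * κ g ^ 6))) := by
  have hl := hT.l_pos
  have hc : -3 ≤ o - 2 ∧ o - 2 ≤ -1 := by rcases ho with h | h <;> omega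
  have hG := gn_st n (fun g => κ g ^ 6) (XS l n Kq o x1 s p)
  have hth := thS_le (s := s) hs1 p
  rw [sum_hsn_Lm]
  refine mul_le_mul_of_nonneg_left ?_ (by positivity)
  have h1 := hG.energy (g + 1) (f := fun j i => hsn (XS l n Kq o x1 s p j i))
    (fun j i => hsn_nonneg _) (E := 3 * T₁ / (2 * l)) (by positivity)
    (fun k hk m => path_le hT ho hs1 hlv hs0 hk hT10 (hT1 k hk) m) n le_rfl t
  refine h1.trans (mul_le_mul_of_nonneg_left ?_ (by positivity))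
  have h2 := prob_top hG (by norm_num : (0 : ℝ) < 3) (fun g => pow_pos (hκ g) 6)
    (XT_symm hT) (XT_psd (x1 := x1) (x3 := p) hT hth hc.1 hc.2) g t
  have h3 : (Qs (XS l n Kq o x1 s p) n t).trace ≤ 3 * T₀ / (2 * l) := by
    have h4 := path_le (x3 := p) hT ho hs1 hlv hs0 le_rfl hT00 hT0 t
    unfold XS at h4 ⊢
    rw [Qs_trace_eq (XT_symm hT)]
    refine le_trans (le_of_eq ?_) h4
    exact (tsum_sum univ (fun a j i => (XT l n Kq (thS s p) (o - 2) x1 p j i *ᵥ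
      (Pi.single a (1 : ℝ) : ι → ℝ)) ⬝ᵥ (XT l n Kq (thS s p) (o - 2) x1 p j i *ᵥ
        Pi.single a 1)) n t).symm
  have hk6 := pow_pos (hκ g) 6
  have e : 3780000 * T₀ / (l * κ g ^ 6) = 280000 * 3 ^ 2 * (3 * T₀ / (2 * l)) / κ g ^ 6 := by
    field_simp
    ring
  rw [e]
  refine h2.trans (div_le_div_of_nonneg_right ?_ hk6.le)
  exact mul_le_mul_of_nonneg_left h3 (by positivity)

/-- **The same, top part by the energies of the whole slot.** -/
theorem E_HS_top (hT : H420.Tr l n G Kq) (ho : o = 1 ∨ o = -1) (hs1 : ∀ k a b, |s k a b| ≤ 1)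
    {lv : ℕ → ℤ → Prop} (hlv : ∀ k < n, ∀ q, lv k q → lv (k + 1) (q / 2))
    (hs0 : ∀ k ≤ n, ∀ a b, s k a b ≠ 0 → lv k (o - 2 - ix k x1 - b - a))
    {T₁ : ℝ} (hT10 : 0 ≤ T₁) (hT1 : ∀ k ≤ n, ∀ q, lv k q → (G k q).trace ≤ T₁) {κ : ℕ → ℝ}
    (hκ : ∀ g, 0 < κ g) (g : ℕ) (t p : ℤ) :
    ∑ i ∈ range n, ∑ x0 ∈ iv n t, hsn (H841.Lm (MT l Kq) o x1
        (sG l n Kq (fun g => κ g ^ 6) o x1 s (g + 1)) (i + 1) x0 p) ≤
      3 * T₁ / (2 * l) * (2520000 * (∑ a, ∑ x0 ∈ iv n t,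
        nsq (H841.Rm (MT l Kq) o x1 s n 0 x0 p *ᵥ Pi.single a 1)) / κ g ^ 6) := by
  have hl := hT.l_pos
  have hc : -3 ≤ o - 2 ∧ o - 2 ≤ -1 := by rcases ho with h | h <;> omega
  have hG := gn_st n (fun g => κ g ^ 6) (XS l n Kq o x1 s p)
  have hth := thS_le (s := s) hs1 p
  rw [sum_hsn_Lm]
  have h1 := hG.energy (g + 1) (f := fun j i => hsn (XS l n Kq o x1 s p j i))
    (fun j i => hsn_nonneg _) (E := 3 * T₁ / (2 * l)) (by positivity)
    (fun k hk m => path_le hT ho hs1 hlv hs0 hk hT10 (hT1 k hk) m) n le_rfl t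
  have h2 := prob_top hG (by norm_num : (0 : ℝ) < 3) (fun g => pow_pos (hκ g) 6)
    (XT_symm hT) (XT_psd (x1 := x1) (x3 := p) hT hth hc.1 hc.2) g t
  have h3 := mul_le_mul_of_nonneg_left (h1.trans (mul_le_mul_of_nonneg_left h2
    (by positivity : 0 ≤ 3 * T₁ / (2 * l)))) (by positivity : (0 : ℝ) ≤ 2 ^ n)
  have h4 : (2 : ℝ) ^ n * (Qs (XS l n Kq o x1 s p) n t).trace =
      ∑ a, ∑ x0 ∈ iv n t, nsq (H841.Rm (MT l Kq) o x1 s n 0 x0 p *ᵥ Pi.single a 1) := by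
    unfold XS
    rw [Qs_trace_eq (XT_symm hT), mul_sum]
    refine sum_congr rfl fun a _ => ?_
    exact (Rm_energy_all (l := l) (Kq := Kq) (o := o) (x1 := x1) (s := s) t p _).symm
  rw [← h4]
  refine h3.trans (le_of_eq ?_)
  ring

end gen

/-! ### The slot `RT` -/

section slot

variable {l : ℝ} {o : ℤ} {Al : ℕ → Pt → Prop} {K : ℕ} {P : Pt} {sg : ℕ → Pt → ℝ}
  {u : ℤ → ℤ → ι → ℝ} {κ : ℕ → ℝ}

/-- **The Hilbert-Schmidt energy of a later generation of `RT` at a point.**  `lv` : the live cells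
of `x2` at the label point `x1`, `T₁` a bound for the traces there. -/
theorem RG_HS (hl : 0 < l) (ho : o = 1 ∨ o = -1) (hsg : ∀ k m, |sg k m| ≤ 1)
    (hκ : ∀ g, 0 < κ g) (g : ℕ) (T : Finset ℤ) (p x1 : ℤ) {lv : ℕ → ℤ → Prop}
    (hlv : ∀ k < K, ∀ q, lv k q → lv (k + 1) (q / 2))
    (hs0 : ∀ k ≤ K, ∀ a b, ((b, o - 2 - a - ix k x1 - b, ix k x1) : Pt) ∈
      H677.sN Al o K P (2 ^ k * a) k → lv k (o - 2 - a - ix k x1 - b))
    {T₁ : ℝ} (hT10 : 0 ≤ T₁) (hT1 : ∀ k ≤ K, ∀ q, lv k q → (H677.GT u x1 k q).trace ≤ T₁) :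
    ∑ t ∈ T, ∑ i ∈ range K, ∑ x0 ∈ iv K t, hsn (H841.Lm (MT l (H677.KT l u x1)) o x1
        (sgn Al o K P sg l u κ (g + 1) x1) (i + 1) x0 p) ≤
      3 * T₁ / (2 * l) * (2520000 * (2 ^ K * ((2 * l)⁻¹ * (H677.GT u x1 K P.2.1).trace)) /
        κ g ^ 6) := by
  have hs0' : ∀ k ≤ K, ∀ a b, s0 Al o K P sg x1 k a b ≠ 0 → lv k (o - 2 - ix k x1 - b - a) := by
    intro k hk a b h
    have e : o - 2 - ix k x1 - b - a = o - 2 - a - ix k x1 - b := by ring
    rw [e]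
    refine hs0 k hk a b ?_
    by_contra hn
    exact h (by unfold s0; rw [if_neg hn])
  have h1 := sum_le_sum fun t (_ : t ∈ T) => E_HS_top (x1 := x1) (p := p)
    (H677.tr_T hl K u x1) ho (s0_le (Al := Al) (o := o) (K := K) (P := P) hsg x1) hlv hs0' hT10
    hT1 hκ g t
  refine h1.trans ?_
  rw [← mul_sum]
  refine mul_le_mul_of_nonneg_left ?_ (by positivity)
  rw [← sum_div, ← mul_sum]
  refine div_le_div_of_nonneg_right (mul_le_mul_of_nonneg_left ?_ (by norm_num))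
    (pow_pos (hκ g) 6).le
  rw [sum_comm]
  have h2 : ∀ a : ι, ∑ t ∈ T, ∑ x0 ∈ iv K t, nsq (H841.Rm (MT l (H677.KT l u x1)) o x1
      (s0 Al o K P sg x1) K 0 x0 p *ᵥ Pi.single a 1) ≤
      2 ^ K * ((2 * l)⁻¹ * ((Pi.single a (1 : ℝ) : ι → ℝ) ⬝ᵥ H677.GT u x1 K P.2.1 *ᵥ
        Pi.single a 1)) := by
    intro a
    refine le_trans (le_of_eq (sum_congr rfl fun t _ => sum_congr rfl fun x0 _ => ?_))
      (H483.RT_end (A := Al) (o := o) (M := P) hl hsg T p x1 (Pi.single a 1))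
    rw [RT_Rm]
    rfl
  refine (sum_le_sum fun a _ => h2 a).trans (le_of_eq ?_)
  rw [← mul_sum, ← mul_sum, trace_single]

end slot

end

end Vale.Agent.P141.H454
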