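import Vale.Agent.P141.H829.PairFD
import Vale.Agent.P141.H900.NumMass

/-!
# P141, line (A), flow part: the mass of the third family, one number for every time

* `mass_half` : a block of scale `k + 1` from the blocks of scale `k`;
* `datC` : the squared norms of `C` of `H677.Sk.FDs` as `H900.Num.Dat`;
* `mass_num` : one number at every `x0` for all times, and its sum over `x0`.
-/

namespace Vale.Agent.P141.H454.MassC

open Finset Matrix
open Vale.Agent.P141.PL (Pt iv ix mem_iv ix_ix cx)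
open Vale.Agent.P141.PL.H315 (Tri)
open Vale.Agent.P141.H576 (QD Dd_sst QD_pack agree_kD)
open Vale.Agent.P141.H48 (sst)
open Vale.Agent.P141.H677.Sk (FamA FamV FDs)
open Vale.Agent.P141.H305 (Cls)
open Vale.Agent.P141.H900.Num (Dat En en_std En_sum)

noncomputable section

open scoped Classical

/-- a cell in two halves -/
theorem sum_half (k : ℕ) (m : ℤ) (f : ℤ → ℝ) :
    ∑ x ∈ iv (k + 1) m, f x = ∑ x ∈ iv k (2 * m), f x + ∑ x ∈ iv k (2 * m + 1), f x :=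
  H43.sum_iv_half k m f

theorem half_mem {N k : ℕ} (hk : k + 1 ≤ N) {n R : ℤ} (hn : n ∈ iv (N - (k + 1)) R) :
    2 * n ∈ iv (N - k) R ∧ 2 * n + 1 ∈ iv (N - k) R := by
  have e : N - k = (N - (k + 1)) + 1 := by omega
  rw [e]
  have h : ∀ a : ℤ, a = 2 * n ∨ a = 2 * n + 1 → a ∈ iv (N - (k + 1) + 1) R := by
    intro a ha
    rw [mem_iv] at hn ⊢
    have h1 : ix 1 a = n := by
      unfold ix
      omega
    rw [add_comm, ← ix_ix, h1, hn]
  exact ⟨h _ (Or.inl rfl), h _ (Or.inr rfl)⟩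

/-- **A block of scale `k + 1` from the blocks of scale `k`.** -/
theorem mass_half {N : ℕ} {R S : ℤ} {f : ℤ → ℤ → ℤ → ℝ} {B : ℝ} {k : ℕ} (hk : k + 1 ≤ N)
    (h : ∀ i : ℤ, ∀ n ∈ iv (N - k) R, ∀ m ∈ iv (N - k) S,
      ∑ x0 ∈ iv k i, ∑ x ∈ iv k n, ∑ y ∈ iv k m, f x0 x y ≤ B * 8 ^ k)
    (i : ℤ) {n m : ℤ} (hn : n ∈ iv (N - (k + 1)) R) (hm : m ∈ iv (N - (k + 1)) S) :
    ∑ x0 ∈ iv (k + 1) i, ∑ x ∈ iv (k + 1) n, ∑ y ∈ iv (k + 1) m, f x0 x y ≤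
      B * 8 ^ (k + 1) := by
  obtain ⟨n1, n2⟩ := half_mem hk hn
  obtain ⟨m1, m2⟩ := half_mem hk hm
  have e : ∀ a : ℤ, ∑ x0 ∈ iv k a, ∑ x ∈ iv (k + 1) n, ∑ y ∈ iv (k + 1) m, f x0 x y =
      ∑ x0 ∈ iv k a, ∑ x ∈ iv k (2 * n), ∑ y ∈ iv k (2 * m), f x0 x y +
      ∑ x0 ∈ iv k a, ∑ x ∈ iv k (2 * n), ∑ y ∈ iv k (2 * m + 1), f x0 x y +
      (∑ x0 ∈ iv k a, ∑ x ∈ iv k (2 * n + 1), ∑ y ∈ iv k (2 * m), f x0 x y +
      ∑ x0 ∈ iv k a, ∑ x ∈ iv k (2 * n + 1), ∑ y ∈ iv k (2 * m + 1), f x0 x y) := by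
    intro a
    simp only [← sum_add_distrib]
    refine sum_congr rfl fun x0 _ => ?_
    rw [sum_half]
    simp only [sum_half, sum_add_distrib]
  rw [sum_half, e, e]
  have a1 := h (2 * i) _ n1 _ m1
  have a2 := h (2 * i) _ n1 _ m2
  have a3 := h (2 * i) _ n2 _ m1
  have a4 := h (2 * i) _ n2 _ m2
  have a5 := h (2 * i + 1) _ n1 _ m1
  have a6 := h (2 * i + 1) _ n1 _ m2
  have a7 := h (2 * i + 1) _ n2 _ m1
  have a8 := h (2 * i + 1) _ n2 _ m2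
  rw [pow_succ]
  linarith

section bundle

variable {ι : Type} [Fintype ι] [DecidableEq ι] {p : H401.Num} {n : ℕ} {ez : ℝ}
  {F1 F2 F3 : ℕ → Pt → ℝ} {K : ℕ} {x : Pt} {s r P : ℝ} {U : Tri} {g : ℤ → ℤ → ℝ}
  {u v : ℤ → ℤ → ι → ℝ} {A : FamA} {b C : FamV ι} {Q1 Q2 Q3 : ℕ → Pt → Prop}
  {v' : ℤ → ℤ → ι → ℝ}

/-- **The squared norms of `C`.** -/
theorem datC (h : FDs p n ez F1 F2 F3 K x s r U g u v A b C Q1 Q2 Q3 v')
    (hcl : Cls K x s r P U g u v) (hs : 0 ≤ s) (hΛ : 1 ≤ p.Lm) (hez : 0 ≤ ez) (hK : K ≤ n) :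
    Dat K (ix K x.2.2) (ix K x.1) (fun x0 k z x' => C x0 k z x' ⬝ᵥ C x0 k z x')
      (fun k i n' m' => QD (fun k x y => sst p.Lm U.2.1 K k x y) Q2 k i m' n')
      (4 * p.Lm * ez * s) (p.cP + 2) where
  B0 := by
    have : 0 ≤ p.Lm := by linarith
    positivity
  f0 x0 k z x' := by
    have := dotProduct_self_star_nonneg (C x0 k z x')
    simpa using this
  ag x0 k hk n' m' hQ' z hz x' hx' := by
    have h1 := agree_kD (Dd_sst p.Lm U.2.1 K) h.B2 (hk.trans_le hK) (x0 := x0) (r := m') (s := n')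
      hQ' hx' hz
    rw [H576.kD_sst] at h1
    rw [h.C_eq, h.C_eq, h1]
  ms k hk j hj i n' hn' m' hm' := by
    have key : ∀ k < K, ∀ i : ℤ, ∀ n' ∈ iv (K - k) (ix K x.2.2), ∀ m' ∈ iv (K - k) (ix K x.1),
        ∑ x0 ∈ iv k i, ∑ z ∈ iv k n', ∑ x' ∈ iv k m',
          C x0 (k + 1) z x' ⬝ᵥ C x0 (k + 1) z x' ≤ 4 * p.Lm * ez * s * 8 ^ k := by
      intro k hk i n' hn' m' hm'
      refine le_trans (le_of_eq (sum_congr rfl fun x0 _ => sum_comm)) ?_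
      refine (H829.massC_FD h hcl hΛ hez hK k hk i n' hn' m' hm').trans (le_of_eq (mul_comm _ _))
    rcases hj with rfl | ⟨rfl, hk'⟩
    · cases j with
      | zero =>
        have e : ∀ x0 z x', C x0 0 z x' = 0 := by
          intro x0 z x'
          rw [h.C_eq]
          unfold H677.kF
          rw [if_pos (Or.inl rfl), zero_smul]
        simp only [e, dotProduct_zero, sum_const_zero]
        have : 0 ≤ p.Lm := by linarith
        positivity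
      | succ k =>
        exact mass_half (f := fun x0 z x' => C x0 (k + 1) z x' ⬝ᵥ C x0 (k + 1) z x')
          hk (fun i n' hn' m' hm' => key k (by omega) i n' hn' m' hm') i hn' hm'
    · exact key k hk' i n' hn' m' hm'
  pk x0 := by
    refine le_trans (le_of_eq (sum_congr rfl fun k _ => sum_comm)) ?_
    exact QD_pack (Dd_sst p.Lm U.2.1 K) h.B2 x0 hK (ix K x.1) (ix K x.2.2)

/-- **The mass number of the third family.** -/
theorem mass_num (h : FDs p n ez F1 F2 F3 K x s r U g u v A b C Q1 Q2 Q3 v')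
    (hcl : Cls K x s r P U g u v) (hs : 0 ≤ s) (hΛ : 1 ≤ p.Lm) (hez : 0 ≤ ez) (hK : K ≤ n) :
    ∃ MM : ℤ → ℝ, (∀ x0, 0 ≤ MM x0) ∧ (∀ x0, ∀ j ≤ K,
      ∑ x' ∈ iv K (ix K x.1), ∑ z ∈ iv K (ix K x.2.2), C x0 j z x' ⬝ᵥ C x0 j z x' ≤ MM x0) ∧
      ∀ t, ∑ x0 ∈ iv K t, MM x0 ≤ 4 * p.Lm * ez * s * (p.cP + 3) * 8 ^ K := by
  have hD := datC h hcl hs hΛ hez hK
  refine ⟨En K (ix K x.2.2) (ix K x.1) (fun x0 k z x' => C x0 k z x' ⬝ᵥ C x0 k z x')
    (fun k i n' m' => QD (fun k x y => sst p.Lm U.2.1 K k x y) Q2 k i m' n'), fun x0 => ?_,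
    fun x0 j hj => ?_, fun t => ?_⟩
  · refine le_trans ?_ (en_std hD x0 (Nat.zero_le K))
    exact sum_nonneg fun _ _ => sum_nonneg fun _ _ => hD.f0 _ _ _ _
  · rw [sum_comm]
    exact en_std hD x0 hj
  · refine (En_sum hD t).trans (le_of_eq ?_)
    ring

end bundle

end

end Vale.Agent.P141.H454.MassC
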